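import Vale.Agent.P144.MathlibUsed

namespace Vale.Agent.P144

open Filter Topology MeasureTheory

/-- A site of the index lattice; for mesh `a` the site `x` stands for the point `a x`. -/
abbrev Site := ℤ × ℤ

/-- Spin configurations on the whole lattice (`true` is `+1`, `false` is `-1`). -/
abbrev Config := Site → Bool

/-- The spin value of a bit. -/
def sp (b : Bool) : ℝ := if b then 1 else -1

/-- Squared Euclidean distance of two sites. -/
def dsq (x y : Site) : ℤ := (x.1 - y.1) ^ 2 + (x.2 - y.2) ^ 2

/-- Nearest-neighbour pairs. -/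
def IsEdge (A : Finset Site) : Prop := ∃ u v : Site, dsq u v = 1 ∧ A = {u, v}

/-- The potentials of the problem: even, finite range, invariant under translations, the rotation
by `π/2` and a reflection (hence under all lattice symmetries). -/
structure IsPotential (V : Finset Site → ℝ) : Prop where
  empty : V ∅ = 0
  even : ∀ A, V A ≠ 0 → Even A.card
  range : ∃ R : ℤ, ∀ A, V A ≠ 0 → ∀ x ∈ A, ∀ y ∈ A, dsq x y ≤ R
  translate : ∀ (t : Site) (A : Finset Site), V (A.image fun x => x + t) = V A
  rotate : ∀ A : Finset Site, V (A.image fun x => (-x.2, x.1)) = V A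
  reflect : ∀ A : Finset Site, V (A.image fun x => (x.1, -x.2)) = V A

open Classical in
/-- The energy in which exactly the terms `A` with `P A` are kept. -/
noncomputable def energy (J lam : ℝ) (V : Finset Site → ℝ) (P : Finset Site → Prop)
    (σ : Config) : ℝ :=
  -∑ᶠ (A : Finset Site) (_ : P A), ((if IsEdge A then J else 0) + lam * V A) * ∏ x ∈ A, sp (σ x)

/-- The configuration that is `+1` on `T ⊆ Λ`, `-1` on the rest of `Λ`, and `η` outside `Λ`. -/
def ext (Λ : Finset Site) (η : Config) (T : Finset Site) : Config :=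
  fun x => if x ∈ Λ then decide (x ∈ T) else η x

/-- Expectation for the weight `exp (-β H)` on the configurations equal to `η` outside `Λ`. -/
noncomputable def expect (β : ℝ) (H : Config → ℝ) (Λ : Finset Site) (η : Config)
    (F : Config → ℝ) : ℝ :=
  (∑ T ∈ Λ.powerset, F (ext Λ η T) * Real.exp (-β * H (ext Λ η T)))
    / ∑ T ∈ Λ.powerset, Real.exp (-β * H (ext Λ η T))

/-- Finite-volume Gibbs expectation. `none`: free boundary condition, the terms inside `Λ` are
kept. `some η`: fixed boundary condition `η`, every term meeting `Λ` is kept. -/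
noncomputable def gibbs (J lam : ℝ) (V : Finset Site → ℝ) (β : ℝ) (b : Option Config)
    (Λ : Finset Site) (F : Config → ℝ) : ℝ :=
  match b with
  | none => expect β (energy J lam V fun A => A ⊆ Λ) Λ (fun _ => true) F
  | some η => expect β (energy J lam V fun A => (A ∩ Λ).Nonempty) Λ η F

/-- The critical coupling of the nearest-neighbour model. -/
noncomputable def Kc : ℝ := Real.log (1 + √2) / 2

/-- The site below a point: `[z]_a = a * fl a z`. -/
noncomputable def fl (a : ℝ) (z : ℂ) : Site := (⌊z.re / a⌋, ⌊z.im / a⌋)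

/-- The two lattice directions. -/
def dir (j : Fin 2) : Site := if j = 0 then (1, 0) else (0, 1)

/-- The sites of `D ∩ aℤ²`. -/
def sites (D : Set ℂ) (a : ℝ) : Set Site := {x | (⟨a * x.1, a * x.2⟩ : ℂ) ∈ D}

open Classical in
/-- `D_a` as a finite set (for `D` bounded and `a > 0`). -/
noncomputable def disc (D : Set ℂ) (a : ℝ) : Finset Site :=
  if h : (sites D a).Finite then h.toFinset else ∅

/-- The points of a mixed correlation: `n` spins at `x`, `m` energies at `y` in directions `j`. -/
structure Pts where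
  n : ℕ
  m : ℕ
  x : Fin n → ℂ
  y : Fin m → ℂ
  j : Fin m → Fin 2

/-- `n + m ≥ 1`, and the points are pairwise distinct points of `D`. -/
def Good (D : Set ℂ) (p : Pts) : Prop :=
  0 < p.n + p.m ∧ (∀ i, p.x i ∈ D) ∧ (∀ k, p.y k ∈ D) ∧ Function.Injective (Sum.elim p.x p.y)

/-- The mixed correlation of rescaled spins and rescaled centred energies in the expectation
`E`. -/
noncomputable def corr (a : ℝ) (E : (Config → ℝ) → ℝ) (p : Pts) : ℝ :=
  E fun σ => (∏ i, a ^ (-(1 / 8) : ℝ) * sp (σ (fl a (p.x i)))) *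
    ∏ k, a⁻¹ * (sp (σ (fl a (p.y k))) * sp (σ (fl a (p.y k) + dir (p.j k)))
      - E fun τ => sp (τ (fl a (p.y k))) * sp (τ (fl a (p.y k) + dir (p.j k))))

/-- An expectation for every mesh. -/
abbrev Fam := ℝ → (Config → ℝ) → ℝ

/-- The mixed correlation at `p` tends to `c` as the mesh tends to `0`. -/
def Lim (E : Fam) (p : Pts) (c : ℝ) : Prop :=
  Tendsto (fun a => corr a (E a) p) (𝓝[>] 0) (𝓝 c)

/-- The model in `D`. The boundary condition `none` is free; `some η` prescribes the configuration
`η a` outside `D_a` for every mesh `a`. -/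
noncomputable def inDom (J lam : ℝ) (V : Finset Site → ℝ) (β : ℝ) (D : Set ℂ)
    (b : Option (ℝ → Config)) : Fam :=
  fun a => gibbs J lam V β (b.map fun η => η a) (disc D a)

/-- The critical nearest-neighbour model in `D`: `λ = 0`, `β = Kc / J`. -/
noncomputable def crit (J : ℝ) (D : Set ℂ) (b : Option (ℝ → Config)) : Fam :=
  inDom J 0 (fun _ => 0) (Kc / J) D b

/-- All scaling limits of `E` exist in `D`. -/
def AllLim (D : Set ℂ) (E : Fam) : Prop := ∀ p, Good D p → ∃ c, Lim E p c

/-- The scaling limits of `E` are those of `E₀` up to the two constants. -/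
def Identity (D : Set ℂ) (E₀ E : Fam) (Zσ Zε : ℝ) : Prop :=
  ∀ p, Good D p → ∀ c, Lim E₀ p c → Lim E p (Zσ ^ p.n * Zε ^ p.m * c)

/-- `μ` is a translation-invariant infinite-volume Gibbs state obtained as a weak limit of
finite-volume Gibbs measures. -/
def IsPlaneState (J lam : ℝ) (V : Finset Site → ℝ) (β : ℝ) (μ : Measure Config) : Prop :=
  IsProbabilityMeasure μ ∧ (∀ t : Site, μ.map (fun σ x => σ (x + t)) = μ) ∧
  ∃ (Λ : ℕ → Finset Site) (b : ℕ → Option Config), (∀ x, ∀ᶠ k in atTop, x ∈ Λ k) ∧
    ∀ A : Finset Site, Tendsto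
      (fun k => gibbs J lam V β (b k) (Λ k) fun σ => ∏ x ∈ A, sp (σ x)) atTop
      (𝓝 (∫ σ, ∏ x ∈ A, sp (σ x) ∂μ))

/-- `E` is the expectation in a choice of plane states. -/
def PlaneFam (J lam : ℝ) (V : Finset Site → ℝ) (β : ℝ) (E : Fam) : Prop :=
  ∃ μ : ℝ → Measure Config, (∀ a > 0, IsPlaneState J lam V β (μ a)) ∧
    ∀ a F, E a F = ∫ σ, F σ ∂(μ a)

/-- The data asked for in Q1 exist for `J`, `V`, `λ`: the identity in the plane for some choice of
the plane state, and in every bounded domain and for every boundary condition for which the limits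
of the critical nearest-neighbour model exist. -/
def HasData (J : ℝ) (V : Finset Site → ℝ) (lam : ℝ) : Prop :=
  ∃ β > 0, ∃ Zσ ≠ 0, ∃ Zε ≠ 0,
    (∃ E, PlaneFam J lam V β E ∧
      ∀ E₀, PlaneFam J 0 (fun _ => 0) (Kc / J) E₀ → Identity Set.univ E₀ E Zσ Zε) ∧
    ∀ D : Set ℂ, IsOpen D → IsConnected D → Bornology.IsBounded D →
      ∀ b, AllLim D (crit J D b) → Identity D (crit J D b) (inDom J lam V β D b) Zσ Zε

/-- The statement of Q1. -/
def Q1 : Prop :=
  ∀ J > 0, ∀ V, IsPotential V → ∃ lam₀ > 0, ∀ lam : ℝ, |lam| < lam₀ → HasData J V lam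

/-- The triangle with vertices `1 - i`, `-1 + i`, `1 + i`. -/
def Tri : Set ℂ := {z | 0 < z.re + z.im ∧ z.re < 1 ∧ z.im < 1}

/-- The critical nearest-neighbour model in `Tri` with plus boundary condition on the legs and free
boundary condition on the hypotenuse. -/
noncomputable def plusFree (J : ℝ) : Fam := fun a =>
  expect (Kc / J) (energy J 0 (fun _ => 0)
    fun A => (A ∩ disc Tri a).Nonempty ∧ ∀ x ∈ A, 0 < x.1 + x.2) (disc Tri a) fun _ => true

/-- What is used of the theorem of Chelkak, Hongler and Izyurov (2021) on the critical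
nearest-neighbour model in `Tri`: all limits exist for plus, and for plus on the legs and free on
the hypotenuse, and the two limiting one-point functions differ at some point. -/
def CHI (J : ℝ) : Prop :=
  AllLim Tri (crit J Tri (some fun _ _ => true)) ∧ AllLim Tri (plusFree J) ∧
  ∃ z ∈ Tri, ∃ c₁ c₂ : ℝ, c₁ ≠ c₂ ∧
    Lim (crit J Tri (some fun _ _ => true)) ⟨1, 0, ![z], ![], ![]⟩ c₁ ∧
    Lim (plusFree J) ⟨1, 0, ![z], ![], ![]⟩ c₂

end Vale.Agent.P144
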